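import Vale.Agent.P235.K5.H558.Centre

/-!
P235, 3-sums, line GX, row [G1] (helper352).  A graph without `K_{3,m}` minor has at most `m + 2`
centres of three vertices `R i`: every point at distance at most `A i + e` from the `R i`, where
the `A i` are the Gromov products of the triple, is at distance at most `6 e` from a centre.
-/

set_option autoImplicit false

namespace Vale.Agent.P235.K5.GX.H352

open SimpleGraph Vale.Agent.P235 Vale.Agent.P235.H134 Vale.Agent.P235.H56
open Vale.Agent.P235.K5.H558 (star_conn)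

variable {V : Type}

/-- a separated family of `m` points gives a `K_{3,m}` minor -/
theorem minor_of [Finite V] {G : SimpleGraph V} {d : V → V → ℝ} (hd : IsMet d) (hG : Gen G d)
    (R : Fin 3 → V) (hR : Function.Injective R) (A : Fin 3 → ℝ) (hA0 : ∀ i, 0 ≤ A i)
    (hA : ∀ i j, i ≠ j → A i + A j = d (R i) (R j)) {m : ℕ} (p : Fin m → V) (e : Fin m → ℝ)
    (he : ∀ a, 0 ≤ e a) (hpe : ∀ a i, d (p a) (R i) ≤ A i + e a)
    (hR3 : ∀ a i, 3 * e a < d (p a) (R i))
    (hsep : ∀ a b, a ≠ b → 3 * (e a + e b) < d (p a) (p b)) :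
    IsMinor (completeBipartiteGraph (Fin 3) (Fin m)) G := by
  let I : V → V → Set V := fun p r => {v | d p v + d v r = d p r}
  have rule1 : ∀ {p r v w : V}, v ∈ I p r → w ∈ I v r → w ∈ I p r := by
    intro p r v w h1 h2
    have h3 := hd.tri p v w
    have h4 := hd.tri p w r
    simp only [I, Set.mem_ofPred_eq] at h1 h2 ⊢
    linarith
  have rule2 : ∀ {p r v w : V}, v ∈ I p r → d v w + d w p = d v p → w ∈ I p r ∧ v ∈ I w r := by
    intro p r v w h1 h2
    have h3 := hd.tri w v r
    have h4 := hd.tri p w r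
    have e1 := hd.symm v w
    have e2 := hd.symm w p
    have e3 := hd.symm v p
    simp only [I, Set.mem_ofPred_eq] at h1 ⊢
    constructor <;> linarith
  have nn : ∀ x y : V, 0 ≤ d x y := by
    intro x y
    by_cases h : x = y
    · subst h
      exact (hd.self x).ge
    · exact (hd.pos x y h).le
  let X : Fin m → Set V := fun a => {w | ∃ i, w ∈ I (p a) (R i) ∧ d (p a) w ≤ e a}
  let Y : Fin 3 → Set V := fun i => {w | w = R i ∨ ∃ a, w ∈ I (p a) (R i) ∧ e a < d (p a) w}
  have self1 : ∀ p r : V, p ∈ I p r := by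
    intro p r; simp only [I, Set.mem_ofPred_eq]; rw [hd.self, zero_add]
  have hX : ∀ a, (G.induce (X a)).Connected := by
    intro a
    refine star_conn (fun v => d v (p a)) (r := p a) ⟨0, self1 _ _, by rw [hd.self]; exact he a⟩ ?_
    rintro v ⟨i, h1, h2⟩ hv
    obtain ⟨w, ha, hw⟩ := K5.H558.step hd hG (x := p a) hv
    obtain ⟨h3, h4⟩ := rule2 h1 hw
    have h5 := hd.pos v w ha.ne
    have h6 := hd.symm w (p a)
    have h7 := hd.symm v (p a)
    refine ⟨w, ⟨i, h3, by linarith⟩, ha, ?_⟩
    show d w (p a) < d v (p a)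
    linarith
  have hY : ∀ i, (G.induce (Y i)).Connected := by
    intro i
    refine star_conn (fun v => d v (R i)) (r := R i) (Or.inl rfl) ?_
    rintro v (h1 | ⟨a, h1, h2⟩) hv
    · exact absurd h1 hv
    · obtain ⟨w, ha, hw⟩ := K5.H558.step hd hG (x := R i) hv
      have hw' : w ∈ I v (R i) := hw
      have h3 := rule1 h1 hw'
      have h5 := hd.pos v w ha.ne
      refine ⟨w, Or.inr ⟨a, h3, ?_⟩, ha, ?_⟩
      · have h1' : d (p a) v + d v (R i) = d (p a) (R i) := h1
        have h3' : d (p a) w + d w (R i) = d (p a) (R i) := h3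
        linarith
      · show d w (R i) < d v (R i)
        linarith
  have adj : ∀ a i, ∃ x ∈ X a, ∃ y ∈ Y i, G.Adj x y := by
    intro a i
    have hfin : Set.Finite {v | v ∈ I (p a) (R i) ∧ d (p a) v ≤ e a} := Set.toFinite _
    obtain ⟨v, hv, hmin⟩ := Set.exists_min_image _ (fun v => d v (R i)) hfin
      ⟨p a, self1 _ _, by rw [hd.self]; exact he a⟩
    have hne : v ≠ R i := by
      intro h
      have h1 := hv.2
      rw [h] at h1
      have h2 := hR3 a i
      have h3 := he a
      linarith
    obtain ⟨w, ha, hw⟩ := K5.H558.step hd hG (x := R i) hne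
    have hw' : w ∈ I v (R i) := hw
    have h1 : w ∈ I (p a) (R i) := rule1 hv.1 hw'
    refine ⟨v, ⟨i, hv.1, hv.2⟩, w, Or.inr ⟨a, h1, ?_⟩, ha⟩
    by_contra hn
    have h2 : d v (R i) ≤ d w (R i) := hmin w ⟨h1, not_lt.1 hn⟩
    have := hd.pos v w ha.ne
    linarith
  have dXX : ∀ a b, a ≠ b → Disjoint (X a) (X b) := by
    intro a b hab
    rw [Set.disjoint_left]
    rintro w ⟨i, _, h2⟩ ⟨j, _, h4⟩
    have h5 := hsep a b hab
    have h6 := hd.tri (p a) w (p b)
    have h7 := hd.symm w (p b)
    have := he a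
    have := he b
    linarith
  have dYY : ∀ i j, i ≠ j → Disjoint (Y i) (Y j) := by
    intro i j hij
    have key : ∀ i j, i ≠ j → ∀ w, w = R i → (∃ b, w ∈ I (p b) (R j) ∧ e b < d (p b) w) →
        False := by
      rintro i j hij w rfl ⟨b, h1, h2⟩
      have h1' : d (p b) (R i) + d (R i) (R j) = d (p b) (R j) := h1
      have h3 := hA i j hij
      have h4 := hpe b j
      have := hA0 i
      linarith
    rw [Set.disjoint_left]
    rintro w (h1 | h1) (h2 | h2)
    · exact hij (hR (h1.symm.trans h2))
    · exact key i j hij w h1 h2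
    · exact key j i (Ne.symm hij) w h2 h1
    · obtain ⟨a, h3, h4⟩ := h1
      obtain ⟨b, h5, h6⟩ := h2
      have h3' : d (p a) w + d w (R i) = d (p a) (R i) := h3
      have h5' : d (p b) w + d w (R j) = d (p b) (R j) := h5
      have h7 := hA i j hij
      have h8 := hpe a i
      have h9 := hpe b j
      have h10 := hd.tri (R i) w (R j)
      have h11 := hd.symm (R i) w
      linarith
  have dXY : ∀ a i, Disjoint (X a) (Y i) := by
    intro a i
    rw [Set.disjoint_left]
    rintro w ⟨j, h1, h2⟩ (h3 | ⟨b, h3, h4⟩)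
    · subst h3
      have h5 := hR3 a i
      have h6 := he a
      linarith
    · by_cases hab : a = b
      · subst hab
        linarith
      · have h3' : d (p b) w + d w (R i) = d (p b) (R i) := h3
        have h5 := hsep a b hab
        have h6 := hpe b i
        have h7 := hd.tri (p a) w (R i)
        have h8 := hd.tri (p a) w (p b)
        have h9 := hd.symm w (p b)
        -- `d (p a) (R i) ≥ A i - e a`
        obtain ⟨k, hk⟩ : ∃ k : Fin 3, i ≠ k := ⟨i + 1, by fin_cases i <;> decide⟩
        have h10 := hA i k hk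
        have h11 := hpe a k
        have h12 := hd.tri (R i) (p a) (R k)
        have h13 := hd.symm (R i) (p a)
        have := he a
        have := he b
        linarith
  let μ : Fin 3 ⊕ Fin m → Set V := fun s => match s with
    | Sum.inl i => Y i
    | Sum.inr a => X a
  refine ⟨μ, ?_, ?_, ?_⟩
  · rintro (i | a)
    · exact hY i
    · exact hX a
  · rintro (i | a) (j | b) hab
    · exact dYY i j fun h => hab (h ▸ rfl)
    · exact (dXY b i).symm
    · exact dXY a j
    · exact dXX a b fun h => hab (h ▸ rfl)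
  · rintro (i | a) (j | b) hab
    · simp at hab
    · obtain ⟨x, hx, y, hy, h⟩ := adj b i
      exact ⟨y, hy, x, hx, h.symm⟩
    · exact adj a j
    · simp at hab

/-- **[G1] CENTRE_m.** -/
theorem centre_m [Finite V] {G : SimpleGraph V} {d : V → V → ℝ} (hd : IsMet d) (hG : Gen G d)
    (R : Fin 3 → V) (hR : Function.Injective R) (m : ℕ)
    (hno : ¬ IsMinor (completeBipartiteGraph (Fin 3) (Fin m)) G) (A : Fin 3 → ℝ)
    (hA : ∀ i j, i ≠ j → A i + A j = d (R i) (R j)) :
    ∃ M : Finset V, M.card ≤ m + 2 ∧ (∀ i, R i ∈ M) ∧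
      ∀ (x : V) (e : ℝ), (∀ i, d x (R i) ≤ A i + e) → ∃ q ∈ M, d x q ≤ 6 * e := by
  classical
  have nn : ∀ x y : V, 0 ≤ d x y := by
    intro x y
    by_cases h : x = y
    · subst h
      exact (hd.self x).ge
    · exact (hd.pos x y h).le
  have hA0 : ∀ i, 0 ≤ A i := by
    have h01 := hA 0 1 (by decide)
    have h02 := hA 0 2 (by decide)
    have h12 := hA 1 2 (by decide)
    have t1 := hd.tri (R 1) (R 0) (R 2)
    have t2 := hd.tri (R 0) (R 1) (R 2)
    have t3 := hd.tri (R 0) (R 2) (R 1)
    have s1 := hd.symm (R 1) (R 0)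
    have s2 := hd.symm (R 2) (R 1)
    intro i
    fin_cases i
    · show 0 ≤ A 0
      linarith
    · show 0 ≤ A 1
      linarith
    · show 0 ≤ A 2
      linarith
  -- the excess
  let E : V → ℝ := fun x => max (max (d x (R 0) - A 0) (d x (R 1) - A 1)) (d x (R 2) - A 2)
  have hE : ∀ x i, d x (R i) ≤ A i + E x := by
    intro x i
    have h0 : d x (R 0) - A 0 ≤ E x := (le_max_left _ _).trans (le_max_left _ _)
    have h1 : d x (R 1) - A 1 ≤ E x := (le_max_right _ _).trans (le_max_left _ _)
    have h2 : d x (R 2) - A 2 ≤ E x := le_max_right _ _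
    fin_cases i
    · show d x (R 0) ≤ A 0 + E x
      linarith
    · show d x (R 1) ≤ A 1 + E x
      linarith
    · show d x (R 2) ≤ A 2 + E x
      linarith
  have hE' : ∀ x (e : ℝ), (∀ i, d x (R i) ≤ A i + e) → E x ≤ e := by
    intro x e h
    refine max_le (max_le ?_ ?_) ?_
    · linarith [h 0]
    · linarith [h 1]
    · linarith [h 2]
  have hE0 : ∀ x, 0 ≤ E x := by
    intro x
    have h01 := hA 0 1 (by decide)
    have h1 := hE x 0
    have h2 := hE x 1
    have h3 := hd.tri (R 0) x (R 1)
    have h4 := hd.symm (R 0) x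
    linarith
  -- greedy
  have hgr : ∀ S : Finset V, ∃ B : Finset V, B ⊆ S ∧ (∀ a ∈ B, ∀ i, 3 * E a < d a (R i)) ∧
      (∀ a ∈ B, ∀ b ∈ B, a ≠ b → 3 * (E a + E b) < d a b) ∧
      ∀ x ∈ S, (∃ i, d x (R i) ≤ 3 * E x) ∨ ∃ a ∈ B, d x a ≤ 3 * (E a + E x) ∧ E a ≤ E x := by
    intro S
    induction S using Finset.induction_on_max_value E with
    | empty => exact ⟨∅, le_rfl, by simp, by simp, by simp⟩
    | insert x S hx hmax ih =>
      obtain ⟨B, hBS, hB1, hB2, hB3⟩ := ih
      by_cases hcov : (∃ i, d x (R i) ≤ 3 * E x) ∨ ∃ a ∈ B, d x a ≤ 3 * (E a + E x)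
      · refine ⟨B, hBS.trans (Finset.subset_insert _ _), hB1, hB2, fun y hy => ?_⟩
        rcases Finset.mem_insert.1 hy with rfl | hy
        · rcases hcov with h | ⟨a, ha, h⟩
          · exact Or.inl h
          · exact Or.inr ⟨a, ha, h, hmax a (hBS ha)⟩
        · exact hB3 y hy
      · push Not at hcov
        refine ⟨insert x B, Finset.insert_subset_insert _ hBS, fun a ha i => ?_,
          fun a ha b hb hab => ?_, fun y hy => ?_⟩
        · rcases Finset.mem_insert.1 ha with rfl | ha
          · exact hcov.1 i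
          · exact hB1 a ha i
        · rcases Finset.mem_insert.1 ha with ha' | ha'
          · rcases Finset.mem_insert.1 hb with hb' | hb'
            · exact absurd (ha'.trans hb'.symm) hab
            · rw [ha']
              have := hcov.2 b hb'
              linarith
          · rcases Finset.mem_insert.1 hb with hb' | hb'
            · rw [hb']
              have h1 := hcov.2 a ha'
              have h2 := hd.symm a x
              linarith
            · exact hB2 a ha' b hb' hab
        · rcases Finset.mem_insert.1 hy with rfl | hy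
          · right
            refine ⟨y, Finset.mem_insert_self _ _, ?_, le_rfl⟩
            rw [hd.self]
            have := hE0 y
            linarith
          · rcases hB3 y hy with h | ⟨a, ha, h⟩
            · exact Or.inl h
            · exact Or.inr ⟨a, Finset.mem_insert_of_mem ha, h⟩
  have := Fintype.ofFinite V
  obtain ⟨B, -, hB1, hB2, hB3⟩ := hgr Finset.univ
  -- at most `m - 1` points
  have hcard : B.card < m := by
    by_contra hcon
    obtain ⟨C, hCB, hC⟩ := Finset.exists_subset_card_eq (not_lt.1 hcon)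
    let q := C.equivFinOfCardEq hC
    apply hno
    refine minor_of hd hG R hR A hA0 hA (fun a => ((q.symm a : C) : V))
      (fun a => E ((q.symm a : C) : V)) (fun a => hE0 _) (fun a i => hE _ i)
      (fun a i => hB1 _ (hCB (q.symm a).2) i) fun a b hab => ?_
    refine hB2 _ (hCB (q.symm a).2) _ (hCB (q.symm b).2) fun h => hab ?_
    exact q.symm.injective (Subtype.ext h)
  refine ⟨B ∪ Finset.univ.image R, ?_, fun i => ?_, fun x e hx => ?_⟩
  · have h1 := Finset.card_union_le B (Finset.univ.image R)
    have h2 : (Finset.univ.image R).card ≤ 3 := by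
      have := Finset.card_image_le (s := (Finset.univ : Finset (Fin 3))) (f := R)
      simpa using this
    omega
  · exact Finset.mem_union_right _ (Finset.mem_image_of_mem R (Finset.mem_univ i))
  · have h1 := hE' x e hx
    have h0 := hE0 x
    rcases hB3 x (Finset.mem_univ x) with ⟨i, hi⟩ | ⟨a, ha, h2, h3⟩
    · exact ⟨R i, Finset.mem_union_right _ (Finset.mem_image_of_mem R (Finset.mem_univ i)),
        by linarith⟩
    · exact ⟨a, Finset.mem_union_left _ ha, by linarith⟩

end Vale.Agent.P235.K5.GX.H352
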