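import Vale.Agent.P235.K5.GX.Defs
import Vale.Agent.P235.K5.GX.H352.Centre

/-!
P235, line GX, row [G1] (helper352): the literal `CentreMStmt`.
-/

set_option autoImplicit false

namespace Vale.Agent.P235.K5.GX.H352

open SimpleGraph Vale.Agent.P235 Vale.Agent.P235.H134 Vale.Agent.P235.H56

/-- **[G1]** -/
theorem centreM : CentreMStmt := by
  intro m V _ G d hd hG R hR hno
  obtain ⟨M, h1, h2, h3⟩ := centre_m hd hG R hR m hno (gp d R) (by
    have s01 := hd.symm (R 0) (R 1)
    have s02 := hd.symm (R 0) (R 2)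
    have s12 := hd.symm (R 1) (R 2)
    have g0 : gp d R 0 = (d (R 0) (R 1) + d (R 0) (R 2) - d (R 1) (R 2)) / 2 := rfl
    have g1 : gp d R 1 = (d (R 1) (R 2) + d (R 1) (R 0) - d (R 2) (R 0)) / 2 := rfl
    have g2 : gp d R 2 = (d (R 2) (R 0) + d (R 2) (R 1) - d (R 0) (R 1)) / 2 := rfl
    intro i j hij
    fin_cases i <;> fin_cases j
    · exact absurd rfl hij
    · show gp d R 0 + gp d R 1 = d (R 0) (R 1)
      rw [g0, g1]; linarith
    · show gp d R 0 + gp d R 2 = d (R 0) (R 2)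
      rw [g0, g2]; linarith
    · show gp d R 1 + gp d R 0 = d (R 1) (R 0)
      rw [g0, g1]; linarith
    · exact absurd rfl hij
    · show gp d R 1 + gp d R 2 = d (R 1) (R 2)
      rw [g1, g2]; linarith
    · show gp d R 2 + gp d R 0 = d (R 2) (R 0)
      rw [g0, g2]; linarith
    · show gp d R 2 + gp d R 1 = d (R 2) (R 1)
      rw [g1, g2]; linarith
    · exact absurd rfl hij)
  refine ⟨M, h1, h2, fun x => ?_⟩
  obtain ⟨i, hi⟩ := Finite.exists_max fun j : Fin 3 => d x (R j) - gp d R j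
  obtain ⟨q, hq, hq2⟩ := h3 x (d x (R i) - gp d R i) fun j => by
    have h4 : d x (R j) - gp d R j ≤ d x (R i) - gp d R i := hi j
    linarith
  exact ⟨q, hq, i, hq2⟩

end Vale.Agent.P235.K5.GX.H352
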